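import Vale.Agent.P325.StDefs

/-! Definitions used in the statement on two-to-one games. -/

namespace Vale.Agent.P339

/-- A projection game with alphabets `Fin (2 * q)` and `Fin q`: a list of constraints `(u, v, π)`,
where `u` names a left vertex, `v` names a right vertex and `π` is the projection. -/
abbrev Game (q : ℕ) : Type := List (ℕ × ℕ × (Fin (2 * q) → Fin q))

/-- Every projection of the game is exactly two-to-one. -/
def TwoToOne {q : ℕ} (G : Game q) : Prop :=
  ∀ c ∈ G, ∀ b : Fin q, (Finset.univ.filter fun a => c.2.2 a = b).card = 2

/-- Number of constraints satisfied by the left labeling `A` and the right labeling `B`. -/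
def gameCount {q : ℕ} (G : Game q) (A : ℕ → Fin (2 * q)) (B : ℕ → Fin q) : ℕ :=
  G.countP fun c => decide (c.2.2 (A c.1) = B c.2.1)

/-- The value of a game: the largest fraction of constraints satisfied by a labeling. -/
noncomputable def gameVal {q : ℕ} (G : Game q) : ℝ :=
  ⨆ p : (ℕ → Fin (2 * q)) × (ℕ → Fin q), (gameCount G p.1 p.2 : ℝ) / (G.length : ℝ)

/-- A game as a list of naturals: for each constraint the two vertices and the table of the
projection. -/
def natsGame {q : ℕ} (G : Game q) : List ℕ :=
  G.flatMap fun c => c.1 :: c.2.1 :: List.ofFn fun i => (c.2.2 i : ℕ)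

end Vale.Agent.P339
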