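import Vale.Agent.P325.LinCore

/-! The bias of the test with a random restriction of the third query. -/

namespace Vale.Agent.P339

open Finset Vale.Agent.P325 Vale.Agent.P325.Lin
open scoped BigOperators

variable {ι κ : Type} [Fintype ι] [DecidableEq ι] [Fintype κ] [DecidableEq κ]

theorem conv2 (F G : (κ → ZMod 2) → ℝ) (h : κ → ZMod 2) :
    𝔼 g, F g * G (g + h) = ∑ β, coef F β * coef G β * chi β h := by
  have e : ∀ g, F g * G (g + h) = ∑ β, F g * chi β g * (coef G β * chi β h) := by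
    intro g
    rw [← inversion G (g + h), mul_sum]
    refine sum_congr rfl fun β _ => ?_
    rw [chi_add]; ring
  simp only [e, expect_sum_comm, ← expect_mul]
  refine sum_congr rfl fun β _ => ?_
  rw [← coef]; ring

theorem parseval_le (F : (κ → ZMod 2) → ℝ) (hF : ∀ g, F g ^ 2 ≤ 1) : ∑ β, coef F β ^ 2 ≤ 1 := by
  have h := conv F 0
  simp only [add_zero, ← sq] at h
  have h2 : 𝔼 g, F g ^ 2 ≤ 𝔼 _g : κ → ZMod 2, (1 : ℝ) := expect_le_expect fun g _ => hF g
  rw [h, Fintype.expect_const] at h2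
  simpa [chi, sg_zero] using h2

/-- The restriction of `y` to the positions where `ω + c` is one. -/
def msk (c : ZMod 2) (ω y : κ → ZMod 2) : κ → ZMod 2 := fun b => (ω b + c) * y b

/-- The bias of the test. -/
noncomputable def bias2 (c : ZMod 2) (π : κ → ι) (A : (ι → ZMod 2) → ℝ)
    (B H : (κ → ZMod 2) → ℝ) : ℝ :=
  𝔼 f : ι → ZMod 2, 𝔼 ω : κ → ZMod 2, 𝔼 g : κ → ZMod 2,
    A f * (B g * H (msk c ω (g + fun b => f (π b))))

theorem expect_keep (c : ZMod 2) (β : κ → ZMod 2) :
    𝔼 ω : κ → ZMod 2, ∏ b, (if β b = 1 ∧ ω b + c = 0 then (0 : ℝ) else 1) = (1 / 2) ^ wt β := by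
  rw [expect_eq_sum_div_card,
    ← Fintype.prod_sum (fun b (w : ZMod 2) => if β b = 1 ∧ w + c = 0 then (0 : ℝ) else 1)]
  have h11 : (1 : ZMod 2) + 1 = 0 := by decide
  have e : ∀ b, ∑ w : ZMod 2, (if β b = 1 ∧ w + c = 0 then (0 : ℝ) else 1) =
      (if β b = 1 then 1 / 2 else 1) * 2 := by
    intro b
    rw [sum_z2]
    by_cases h : β b = 1
    · rcases z2_cases c with rfl | rfl <;> simp [h, h11]
    · simp [h]; norm_num
  simp only [e, prod_mul_distrib, prod_const, card_univ, Fintype.card_pi, ZMod.card,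
    Nat.cast_pow, Nat.cast_ofNat]
  rw [mul_div_assoc, div_self (by positivity), mul_one, prod_ite]
  simp [wt]

theorem bias2_sq_le (c : ZMod 2) (π : κ → ι) (A : (ι → ZMod 2) → ℝ) (B H : (κ → ZMod 2) → ℝ)
    (hH : ∀ g, H g ^ 2 ≤ 1) (hA : coef A 0 = 0) :
    bias2 c π A B H ^ 2 ≤ ∑ β, coef B β ^ 2 / wt β * coef A (push π β) ^ 2 := by
  have e1 : bias2 c π A B H = 𝔼 ω : κ → ZMod 2, ∑ β, coef B β * coef A (push π β) *
      (∏ b, (if β b = 1 ∧ ω b + c = 0 then (0 : ℝ) else 1)) * coef (fun y => H (msk c ω y)) β := by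
    unfold bias2
    rw [expect_comm]
    refine expect_congr rfl fun ω _ => ?_
    simp only [← mul_expect, conv2 B fun y => H (msk c ω y), chi_comp, mul_sum, expect_sum_comm]
    refine sum_congr rfl fun β _ => ?_
    by_cases h : ∃ b, β b = 1 ∧ ω b + c = 0
    · obtain ⟨b, hb1, hb2⟩ := h
      have h0 : coef (fun y => H (msk c ω y)) β = 0 := by
        refine coef_eq_zero _ (Pi.single b 1) β 1 (fun g => ?_) ?_
        · rw [one_mul]
          congr 1
          funext a
          by_cases ha : a = b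
          · simp [msk, ha, hb2]
          · simp [msk, ha]
        · rw [one_mul, chi, prod_eq_single b (fun c _ hc => by simp [hc, sg_zero]) (by simp)]
          simp [hb1, sg_one]
      simp [h0]
    · rw [prod_eq_one fun b _ => if_neg fun hb => h ⟨b, hb⟩]
      generalize coef B β = x
      generalize coef (fun y => H (msk c ω y)) β = y
      rw [coef, mul_one, mul_expect, expect_mul]
      refine expect_congr rfl fun f _ => ?_
      ring
  have e2 : ∀ ω : κ → ZMod 2, (∑ β, coef B β * coef A (push π β) *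
      (∏ b, (if β b = 1 ∧ ω b + c = 0 then (0 : ℝ) else 1)) *
        coef (fun y => H (msk c ω y)) β) ^ 2 ≤ ∑ β, coef B β ^ 2 * coef A (push π β) ^ 2 *
      ∏ b, (if β b = 1 ∧ ω b + c = 0 then (0 : ℝ) else 1) := by
    intro ω
    refine (sum_mul_sq_le_sq_mul_sq univ _ _).trans ?_
    refine (mul_le_of_le_one_right (sum_nonneg fun _ _ => sq_nonneg _)
      (parseval_le _ fun g => hH _)).trans (le_of_eq (sum_congr rfl fun β _ => ?_))
    rw [mul_pow, mul_pow, ← prod_pow]
    congr 1
    refine prod_congr rfl fun b _ => ?_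
    split_ifs <;> norm_num
  have e3 := expect_mul_sq_le_sq_mul_sq univ (fun _ => (1 : ℝ)) fun ω : κ → ZMod 2 =>
    ∑ β, coef B β * coef A (push π β) *
      (∏ b, (if β b = 1 ∧ ω b + c = 0 then (0 : ℝ) else 1)) * coef (fun y => H (msk c ω y)) β
  simp only [one_mul, one_pow, Fintype.expect_const] at e3
  rw [e1]
  refine e3.trans ((expect_le_expect fun ω _ => e2 ω).trans ?_)
  rw [expect_sum_comm]
  refine sum_le_sum fun β _ => ?_
  rw [← mul_expect, expect_keep]
  by_cases hw : wt β = 0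
  · have hβ : push π β = 0 := by
      funext a
      refine sum_eq_zero fun b _ => ?_
      have := card_eq_zero.1 hw
      have hb : β b ≠ 1 := fun h => by
        have h' : b ∈ univ.filter fun b => β b = 1 := by simp [h]
        rw [this] at h'
        simp at h'
      rcases z2_cases (β b) with h | h
      · simp [h]
      · exact absurd h hb
    simp [hβ, hA]
  · have hw' : (0 : ℝ) < wt β := by positivity
    have h1 : ((1 : ℝ) / 2) ^ wt β ≤ 1 / wt β := by
      rw [one_div_pow]
      exact one_div_le_one_div_of_le hw' (by exact_mod_cast Nat.lt_two_pow_self.le)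
    calc _ ≤ coef B β ^ 2 * coef A (push π β) ^ 2 * (1 / wt β) :=
          mul_le_mul_of_nonneg_left h1 (by positivity)
      _ = _ := by ring

theorem core {E V U : Type} [Fintype E] [Nonempty E] [Nonempty ι] [Nonempty κ]
    (bob : E → V) (ali : E → U) (π : E → κ → ι) (valid : V → κ → Prop)
    [∀ v, DecidablePred (valid v)] (c : ZMod 2)
    (A : U → (ι → ZMod 2) → ℝ) (B : V → (κ → ZMod 2) → ℝ) (H : E → (κ → ZMod 2) → ℝ)
    (hA : ∀ u f, A u f ^ 2 = 1) (hA' : ∀ u f, A u (f + 1) = -A u f)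
    (hB : ∀ v g, B v g ^ 2 = 1)
    (hB' : ∀ v g b, ¬ valid v b → B v (g + Pi.single b 1) = B v g)
    (hH : ∀ e g, H e g ^ 2 ≤ 1) (η : ℝ)
    (hval : ∀ (F : V → κ) (G : U → ι),
      𝔼 e, (if valid (bob e) (F (bob e)) ∧ π e (F (bob e)) = G (ali e) then (1 : ℝ) else 0) ≤ η) :
    (𝔼 e, bias2 c (π e) (A (ali e)) (B (bob e)) (H e)) ^ 2 ≤ η := by
  have hc : (0 : ℝ) < Fintype.card E := by positivity
  have hA0 : ∀ u, coef (A u) 0 = 0 := fun u =>
    coef_eq_zero (A u) 1 0 (-1) (fun f => by rw [hA']; ring) (by simp [chi, sg_zero])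
  have hB0 : ∀ v β b, ¬ valid v b → β b = 1 → coef (B v) β = 0 := fun v β b h1 h2 =>
    coef_eq_zero (B v) (Pi.single b 1) β 1 (fun g => by rw [hB' v g b h1, one_mul]) (by
      rw [one_mul, chi, prod_eq_single b (fun c _ hc => by simp [hc, sg_zero]) (by simp)]
      simp [h2, sg_one])
  obtain ⟨F, hF⟩ := derand bob (fun e b => if valid (bob e) b then pA (A (ali e)) (π e b) else 0)
    (fun e b => by have := pA_nonneg (A (ali e)) (π e b); split_ifs <;> positivity)
    (fun v => pB (B v)) (fun v => pB_nonneg _) (fun v => sum_pB _ (hB v))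
  obtain ⟨G, hG⟩ := derand ali
    (fun e a => if valid (bob e) (F (bob e)) ∧ π e (F (bob e)) = a then (1 : ℝ) else 0)
    (fun e a => by split_ifs <;> positivity)
    (fun u => pA (A u)) (fun u => pA_nonneg _) (fun u => sum_pA _ (hA u))
  have h1 : ∀ e, (if valid (bob e) (F (bob e)) then pA (A (ali e)) (π e (F (bob e))) else 0) =
      ∑ a, pA (A (ali e)) a *
        (if valid (bob e) (F (bob e)) ∧ π e (F (bob e)) = a then (1 : ℝ) else 0) := by
    intro e
    by_cases h : valid (bob e) (F (bob e)) <;> simp [h]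
  have h2 := hval F G
  rw [expect_eq_sum_div_card, card_univ, div_le_iff₀ hc] at h2
  have h3 : ∑ e, bias2 c (π e) (A (ali e)) (B (bob e)) (H e) ^ 2 ≤ η * Fintype.card E := by
    refine (sum_le_sum fun e _ => bias2_sq_le c (π e) (A (ali e)) (B (bob e)) (H e) (hH e)
      (hA0 _)).trans ?_
    refine (sum_le_sum fun e _ => edge_le (π e) (valid (bob e)) _ _ (hA0 _) (hB0 _)).trans ?_
    refine hF.trans ?_
    simp only [h1]
    exact hG.trans h2
  have h4 := sq_sum_le_card_mul_sum_sq (s := univ)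
    (f := fun e => bias2 c (π e) (A (ali e)) (B (bob e)) (H e))
  rw [expect_eq_sum_div_card, div_pow, card_univ, div_le_iff₀ (by positivity)]
  rw [card_univ] at h4
  refine h4.trans ((mul_le_mul_of_nonneg_left h3 hc.le).trans_eq (by ring))

end Vale.Agent.P339
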