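import Mathlib

/-! The projections of the game: four or three real labels, the others are dummies. -/

namespace Vale.Agent.P339

open Finset
open scoped BigOperators

/-- Left labels. -/
abbrev LL (D : ℕ) : Type := (Bool × Bool) ⊕ (ZMod (D + 1) × Bool)

/-- Right labels. -/
abbrev RL (D : ℕ) : Type := Bool ⊕ ZMod (D + 1)

/-- The three linear forms. -/
def lin (c : Bool) (j : Fin 3) (p : Bool × Bool) : Bool :=
  if j = 0 then xor p.1 c else if j = 1 then p.2 else xor p.1 p.2

variable {D : ℕ}

/-- The basic projection. -/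
def base (c : Bool) (j : Fin 3) (s : ZMod (D + 1)) : LL D → RL D :=
  Sum.map (lin c j) fun d => d.1 + s

/-- The exchange of the fourth label with a dummy. -/
def exch (ty : Bool) (d : ZMod (D + 1)) : Equiv.Perm (LL D) :=
  if ty = true then Equiv.swap (Sum.inl (true, true)) (Sum.inr (d, false)) else Equiv.refl _

/-- The projection. -/
def pm (ty c : Bool) (j : Fin 3) (r : ZMod (D + 1) × ZMod (D + 1)) (x : LL D) : RL D :=
  base c j r.2 (exch ty r.1 x)

theorem base_fiber (c : Bool) (j : Fin 3) (s : ZMod (D + 1)) (b : RL D) :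
    ∑ x : LL D, (if base c j s x = b then 1 else 0) = 2 := by
  rw [Fintype.sum_sum_type]
  rcases b with v | d
  · simp only [base, Sum.map_inl, Sum.map_inr, Sum.inl.injEq, reduceCtorEq, if_false,
      sum_const_zero, add_zero]
    revert c j v
    decide
  · simp only [base, Sum.map_inl, Sum.map_inr, Sum.inr.injEq, reduceCtorEq, if_false,
      sum_const_zero, zero_add, Fintype.sum_prod_type, ← eq_sub_iff_add_eq]
    rw [sum_comm]
    simp

theorem pm_fiber {α β : Type} [Fintype α] [DecidableEq β] (eL : α ≃ LL D) (eR : RL D ≃ β)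
    (ty c : Bool) (j : Fin 3) (r : ZMod (D + 1) × ZMod (D + 1)) (b : β) :
    (univ.filter fun a => eR (pm ty c j r (eL a)) = b).card = 2 := by
  rw [card_filter, ← base_fiber c j r.2 (eR.symm b),
    ← Equiv.sum_comp (eL.trans (exch ty r.1))]
  refine sum_congr rfl fun a _ => ?_
  exact if_congr (by simp only [pm, Equiv.trans_apply, Equiv.eq_symm_apply]) rfl rfl

theorem pm_real (ty c : Bool) (j : Fin 3) (r : ZMod (D + 1) × ZMod (D + 1)) (p : Bool × Bool)
    (hp : ty = true → p ≠ (true, true)) : pm ty c j r (Sum.inl p) = Sum.inl (lin c j p) := by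
  unfold pm exch
  split_ifs with h
  · rw [Equiv.swap_apply_of_ne_of_ne (by simpa using hp h) (by simp)]
    rfl
  · rfl

/-- The bit read from a right label. -/
def bt (b : RL D) : Bool := Sum.elim id (fun _ => false) b

/-- A bit as a number. -/
def nb (b : Bool) : ℝ := if b = true then 1 else 0

/-- The largest number of satisfied edges at a left vertex. -/
noncomputable def best (ty c x y z : Bool) : ℝ :=
  if ty = true then 3 - |nb (xor x c) + nb y - nb z|
  else if xor (xor x c) y = z then 3 else 2

theorem best_nonneg (ty c x y z : Bool) : 0 ≤ best ty c x y z := by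
  cases ty <;> cases c <;> cases x <;> cases y <;> cases z <;> norm_num [best, nb]

theorem real_le (ty c x y z : Bool) (p : Bool × Bool) (hp : ty = true → p ≠ (true, true)) :
    (if lin c 0 p = x then (1 : ℝ) else 0) + (if lin c 1 p = y then 1 else 0) +
      (if lin c 2 p = z then 1 else 0) ≤ best ty c x y z := by
  obtain ⟨p, q⟩ := p
  change (if xor p c = x then (1 : ℝ) else 0) + (if q = y then 1 else 0) +
      (if xor p q = z then 1 else 0) ≤ best ty c x y z
  cases ty <;> cases c <;> cases x <;> cases y <;> cases z <;> cases p <;> cases q <;>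
    first | exact absurd rfl (hp rfl) | norm_num [best, nb]

theorem exp_ind (d : ZMod (D + 1)) :
    𝔼 s : ZMod (D + 1), (if s = d then (1 : ℝ) else 0) = 1 / (D + 1) := by
  rw [expect_eq_sum_div_card]
  simp

theorem base_inr (c : Bool) (j : Fin 3) (x : ZMod (D + 1) × Bool) (b : RL D) :
    𝔼 s : ZMod (D + 1), (if base c j s (Sum.inr x) = b then (1 : ℝ) else 0) ≤ 1 / (D + 1) := by
  rcases b with v | d
  · simp only [base, Sum.map_inr, reduceCtorEq, if_false, expect_const_zero]
    positivity
  · rw [← exp_ind (d - x.1)]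
    refine le_of_eq (expect_congr rfl fun s _ => ?_)
    simp only [base, Sum.map_inr, Sum.inr.injEq, eq_sub_iff_add_eq, add_comm]

theorem dummy_le (ty c : Bool) (j : Fin 3) (x : LL D)
    (hx : ¬ ∃ p, x = Sum.inl p ∧ (ty = true → p ≠ (true, true))) (b : RL D) :
    𝔼 r : ZMod (D + 1) × ZMod (D + 1), (if pm ty c j r x = b then (1 : ℝ) else 0) ≤
      2 / (D + 1) := by
  have h0 : (0 : ℝ) ≤ 1 / (D + 1) := by positivity
  obtain ⟨d0, hd⟩ : ∃ d0 : ZMod (D + 1), ∀ d, d ≠ d0 → ∃ y, exch ty d x = Sum.inr y := by
    rcases x with p | y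
    · have h1 : ty = true ∧ p = (true, true) := by
        by_contra h
        exact hx ⟨p, rfl, fun h1 h2 => h ⟨h1, h2⟩⟩
      exact ⟨0, fun d _ => ⟨(d, false), by simp [exch, h1.1, h1.2]⟩⟩
    · refine ⟨y.1, fun d hd => ⟨y, ?_⟩⟩
      unfold exch
      split_ifs
      · exact Equiv.swap_apply_of_ne_of_ne (by simp) fun h => hd (by
          rw [Sum.inr.injEq] at h
          rw [h])
      · rfl
  rw [← univ_product_univ, expect_product]
  calc _ ≤ 𝔼 d : ZMod (D + 1), ((if d = d0 then (1 : ℝ) else 0) + 1 / (D + 1)) := by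
        refine expect_le_expect fun d _ => ?_
        by_cases h : d = d0
        · rw [if_pos h]
          refine le_trans (expect_le_expect (g := fun _ => 1) fun s _ => ?_) ?_
          · split_ifs <;> norm_num
          · rw [Fintype.expect_const]; linarith
        · obtain ⟨y, hy⟩ := hd d h
          rw [if_neg h, zero_add]
          simp only [pm, hy]
          exact base_inr c j y b
    _ = _ := by rw [expect_add_distrib, exp_ind, Fintype.expect_const]; ring

theorem pad_le (ty c : Bool) (x : LL D) (b : Fin 3 → RL D) :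
    𝔼 j : Fin 3, 𝔼 r : ZMod (D + 1) × ZMod (D + 1), (if pm ty c j r x = b j then (1 : ℝ) else 0) ≤
      best ty c (bt (b 0)) (bt (b 1)) (bt (b 2)) / 3 + 2 / (D + 1) := by
  have h0 : (0 : ℝ) ≤ 2 / (D + 1) := by positivity
  by_cases hx : ∃ p, x = Sum.inl p ∧ (ty = true → p ≠ (true, true))
  · obtain ⟨p, rfl, hp⟩ := hx
    have h1 := real_le ty c (bt (b 0)) (bt (b 1)) (bt (b 2)) p hp
    have h2 : ∀ j, (if Sum.inl (lin c j p) = b j then (1 : ℝ) else 0) ≤
        if lin c j p = bt (b j) then 1 else 0 := by
      intro j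
      by_cases h : Sum.inl (lin c j p) = b j
      · rw [if_pos h, if_pos (by rw [← h]; rfl)]
      · rw [if_neg h]
        split_ifs <;> norm_num
    simp only [pm_real ty c _ _ p hp, Fintype.expect_const]
    rw [expect_eq_sum_div_card, Fin.sum_univ_three, card_univ, Fintype.card_fin]
    have := h2 0
    have := h2 1
    have := h2 2
    push_cast
    linarith
  · have h1 := best_nonneg ty c (bt (b 0)) (bt (b 1)) (bt (b 2))
    refine le_trans (expect_le_expect (g := fun _ => (2 : ℝ) / (D + 1)) fun j _ =>
      dummy_le ty c j x hx (b j)) ?_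
    rw [Fintype.expect_const]
    linarith

end Vale.Agent.P339
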