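import Vale.Agent.P325.LinRed
import Vale.Agent.P339.Defs
import Vale.Agent.P339.Four
import Vale.Agent.P339.Pad

/-! The reduction from gap formulas to two-to-one games. -/

namespace Vale.Agent.P339

open Vale.Agent.Lib.PolyTime Finset Vale.Agent.P325 Vale.Agent.P325.Lin
open scoped BigOperators Classical

variable {t D : ℕ}

/-- Left vertices: type, shift and the three neighbours. -/
abbrev Con : Type := Bool × Bool × ℕ × ℕ × ℕ

/-- The neighbours of a left vertex. -/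
def cv (k : Con) (j : Fin 3) : ℕ :=
  if j = 0 then k.2.2.1 else if j = 1 then k.2.2.2.1 else k.2.2.2.2

/-- The randomness of one test. -/
abbrev Tm2 (t : ℕ) : Type :=
  (Fin t → Mode) × ((Fin t → Bool) → ZMod 2) × ((Fin t → Fin 3 → Bool) → ZMod 2) ×
    ((Fin t → Fin 3 → Bool) → ZMod 2)

/-- The third query. -/
def yy (τ : Tm2 t) : (Fin t → Fin 3 → Bool) → ZMod 2 := τ.2.2.2 + fun b => τ.2.1 (prj τ.1 b)

/-- The shift caused by folding. -/
def cb (τ : Tm2 t) (ty : Bool) : Bool :=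
  if ty = true then false else decide ((τ.2.1 fun _ => false) = 1)

/-- The two left vertices of a test. -/
noncomputable def cst (W : Fin t → Cl) (τ : Tm2 t) (ty : Bool) : Con :=
  (ty, cb τ ty,
    if ty = true then nameB W (cond (sgs W) (msk 0 τ.2.2.1 (yy τ)))
    else nameA (fun i => aq (W i) (τ.1 i)) (fold τ.2.1),
    nameB W (cond (sgs W) (if ty = true then msk 1 τ.2.2.1 (yy τ) else τ.2.2.2)),
    nameB W (cond (sgs W) (yy τ)))

/-- Templates of edges. -/
abbrev Tp (t D : ℕ) : Type := Tm2 t × Bool × Fin 3 × (ZMod (D + 1) × ZMod (D + 1))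

/-- Numbering of the left labels. -/
noncomputable def eL (D : ℕ) : Fin (2 * (D + 3)) ≃ LL D :=
  (Fintype.equivFinOfCardEq (by simp; ring)).symm

/-- Numbering of the right labels. -/
noncomputable def eR (D : ℕ) : RL D ≃ Fin (D + 3) :=
  Fintype.equivFinOfCardEq (by simp; ring)

/-- The projection of an edge. -/
noncomputable def tab (τ : Tp t D) (a : Fin (2 * (D + 3))) : Fin (D + 3) :=
  eR D (pm τ.2.1 (cb τ.1 τ.2.1) τ.2.2.1 τ.2.2.2 (eL D a))

/-- One edge. -/
noncomputable def edge (W : Fin t → Cl) (τ : Tp t D) :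
    ℕ × ℕ × (Fin (2 * (D + 3)) → Fin (D + 3)) :=
  (enc (cst W τ.1 τ.2.1), cv (cst W τ.1 τ.2.1) τ.2.2.1, tab τ)

/-- The game. -/
noncomputable def red (t D : ℕ) (ψ : CNF3) : Game (D + 3) :=
  (tuples t ψ).flatMap fun W => (univ : Finset (Tp t D)).toList.map
    (edge fun i : Fin t => W.getD i default)

theorem pt_cst {α : Type} [Enc α] {W : α → Fin t → Cl} (hW : ∀ i, PT fun a => W a i)
    (τ : Tm2 t) (ty : Bool) : PT fun a => cst (W a) τ ty := by
  have h1 : PT fun a => List.ofFn (W a) := pt_ofFn W hW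
  have h2 : PT fun a => List.ofFn fun i => aq (W a i) (τ.1 i) :=
    pt_ofFn (fun a i => aq (W a i) (τ.1 i)) fun i => pt_aq (hW i) _
  have h3 : ∀ g, PT fun a => nameB (W a) (cond (sgs (W a)) g) := fun g => by
    have h4 : PT fun a => code (cond (sgs (W a)) g) :=
      pt_finite_fun (fun a => sgs (W a)) (fun x => pt_csgn (hW x.1) x.2)
        (fun s _ => code (cond s g)) fun _ => PT.const _
    exact ((PT.const true).mk (h1.mk h4).encN).encN
  refine (PT.const _).mk ((PT.const _).mk (PT.mk ?_ ((h3 _).mk (h3 _))))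
  split_ifs
  · exact h3 _
  · exact ((PT.const false).mk (h2.mk (PT.const _)).encN).encN

theorem pt_cv {α : Type} [Enc α] {c : α → Con} (hc : PT c) (p : Fin 3) :
    PT fun a => cv (c a) p := by
  unfold cv
  split_ifs <;> fun_prop

theorem pt_red (t D : ℕ) : PT fun ψ => natsGame (red t D ψ) := by
  have h1 : PT fun q : CNF3 × List Cl => (univ : Finset (Tp t D)).toList.flatMap fun τ =>
      (edge (fun i : Fin t => q.2.getD i default) τ).1 ::
        (edge (fun i : Fin t => q.2.getD i default) τ).2.1 ::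
          List.ofFn fun i => (tab τ i : ℕ) := by
    refine pt_flatMap_const _ _ fun τ _ => ?_
    have h2 : PT fun q : CNF3 × List Cl => cst (fun i : Fin t => q.2.getD i default) τ.1 τ.2.1 :=
      pt_cst (fun i => by fun_prop) _ _
    exact PT.cons h2.encN (PT.cons (pt_cv h2 _) (PT.const _))
  have h2 := PT.flatMap (f := fun (_ : CNF3) (W : List Cl) =>
    (univ : Finset (Tp t D)).toList.flatMap fun τ =>
      (edge (fun i : Fin t => W.getD i default) τ).1 ::
        (edge (fun i : Fin t => W.getD i default) τ).2.1 ::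
          List.ofFn fun i => (tab τ i : ℕ)) h1 (pt_tuples t PT.id)
  refine h2.congr fun L => ?_
  simp only [natsGame, red, List.flatMap_assoc, List.flatMap_map]
  rfl

theorem mem_red {ψ : CNF3} {c : ℕ × ℕ × (Fin (2 * (D + 3)) → Fin (D + 3))}
    (hc : c ∈ red t D ψ) : ∃ (W : Fin t → Cl) (τ : Tp t D), (∀ i, W i ∈ ψ) ∧ c = edge W τ := by
  obtain ⟨W, hW, hc⟩ := List.mem_flatMap.1 hc
  obtain ⟨τ, -, rfl⟩ := List.mem_map.1 hc
  obtain ⟨h1, h2⟩ := mem_tuples.1 hW
  refine ⟨_, τ, fun i => h2 _ ?_, rfl⟩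
  rw [List.getD_eq_getElem _ _ (by rw [h1]; exact i.2)]
  exact List.getElem_mem _

theorem red_two (ψ : CNF3) : TwoToOne (red t D ψ) := by
  intro c hc b
  obtain ⟨W, τ, -, rfl⟩ := mem_red hc
  exact pm_fiber (eL D) (eR D) _ _ _ _ b

theorem sum_red (ψ : CNF3) (F : ℕ × ℕ × (Fin (2 * (D + 3)) → Fin (D + 3)) → ℝ) :
    ((red t D ψ).map F).sum =
      ∑ u : Fin t → Fin ψ.length, ∑ τ : Tp t D, F (edge (fun i => ψ[u i]) τ) := by
  rw [red, sum_flatMap_eq, sum_tuples]
  refine sum_congr rfl fun u _ => ?_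
  rw [List.map_map, sum_toList_univ]
  refine sum_congr rfl fun τ _ => ?_
  have e : (fun i : Fin t => (List.ofFn fun i => ψ[u i]).getD i default) = fun i => ψ[u i] := by
    funext i
    simp
  rw [Function.comp_apply, e]

theorem length_red (ψ : CNF3) : ((red t D ψ).length : ℝ) =
    Fintype.card (Fin t → Fin ψ.length) * Fintype.card (Tp t D) := by
  have h := sum_red (t := t) (D := D) ψ fun _ => 1
  simpa only [List.map_const', List.sum_replicate, nsmul_eq_mul, mul_one, sum_const,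
    card_univ] using h

theorem red_complete (ψ : CNF3) (h : Sat ψ) :
    ∃ (A : ℕ → Fin (2 * (D + 3))) (B : ℕ → Fin (D + 3)),
      ∀ c ∈ red t D ψ, c.2.2 (A c.1) = B c.2.1 := by
  obtain ⟨σ0, h0⟩ := h
  obtain ⟨σ, hA, hB⟩ := exists_assign (t := t) (fun U i => (U i).elim false σ0)
    fun W i p => σ0 (cvar (W i) p)
  refine ⟨Function.extend (enc : Con → ℕ)
    (fun k => (eL D).symm (Sum.inl (xor (σ k.2.2.1) k.2.1, σ k.2.2.2.1))) fun _ => ⟨0, by omega⟩,
    fun v => eR D (Sum.inl (σ v)), fun c hc => ?_⟩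
  obtain ⟨W, ⟨τ, ty, j, r⟩, hW, rfl⟩ := mem_red hc
  have hok : ok (sgs W) fun i p => σ0 (cvar (W i) p) := fun i =>
    (clauseTrue_iff σ0 (W i)).1 (h0 _ (hW i))
  have hp : (fun i => (aq (W i) (τ.1 i)).elim false σ0) =
      prj τ.1 fun i p => σ0 (cvar (W i) p) := by
    funext i
    unfold aq prj pr1
    split_ifs <;> rfl
  have key : (ty = true → (xor (σ (cst W τ ty).2.2.1) (cb τ ty), σ (cst W τ ty).2.2.2.1) ≠
      (true, true)) ∧ xor (xor (σ (cst W τ ty).2.2.1) (cb τ ty)) (σ (cst W τ ty).2.2.2.1) =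
      σ (cst W τ ty).2.2.2.2 := by
    cases ty
    · simp only [cst, cb, Bool.false_eq_true, if_false, hA, hB, hp, Lin.fold, Lin.cond, if_pos hok,
        yy, Pi.add_apply, false_imp_iff, true_and]
      generalize τ.2.1 (prj τ.1 fun i p => σ0 (cvar (W i) p)) = x
      generalize (τ.2.1 fun _ => false) = y
      generalize (τ.2.2.2 fun i p => σ0 (cvar (W i) p)) = z
      revert x y z
      decide
    · simp only [cst, cb, if_true, hB, Lin.cond, if_pos hok, msk]
      generalize (yy τ fun i p => σ0 (cvar (W i) p)) = x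
      generalize (τ.2.2.1 fun i p => σ0 (cvar (W i) p)) = y
      revert x y
      decide
  simp only [edge, tab, Enc.inj.extend_apply, Equiv.apply_symm_apply]
  change eR D (pm ty (cb τ ty) j r
    (Sum.inl (xor (σ (cst W τ ty).2.2.1) (cb τ ty), σ (cst W τ ty).2.2.2.1))) = _
  rw [pm_real _ _ _ _ _ key.1]
  congr 2
  unfold lin cv
  split_ifs
  · simp
  · rfl
  · exact key.2

theorem best_pair (c a b b' n z : Bool) : best false c a b z + best true false b' n z ≤
    6 - (1 - sb a * sb c * (sb b * sb b')) / 2 - sb a * sb c * (sb b * nb n) := by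
  cases c <;> cases a <;> cases b <;> cases b' <;> cases n <;> cases z <;>
    norm_num [best, nb, sb]

theorem test_le (A : ℕ → Fin (2 * (D + 3))) (B : ℕ → Fin (D + 3)) (σ : ℕ → Bool)
    (hσ : ∀ v, σ v = bt ((eR D).symm (B v))) (W : Fin t → Cl) (τ : Tm2 t) :
    𝔼 ρ : Bool × Fin 3 × (ZMod (D + 1) × ZMod (D + 1)),
      (if (edge W (τ, ρ)).2.2 (A (edge W (τ, ρ)).1) = B (edge W (τ, ρ)).2.1 then (1 : ℝ) else 0) ≤
      11 / 12 + 2 / (D + 1) + tA σ (fun i => aq (W i) (τ.1 i)) τ.2.1 *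
        (tB σ W τ.2.2.2 * tB σ W (msk 0 τ.2.2.1 (yy τ))) / 12 -
      tA σ (fun i => aq (W i) (τ.1 i)) τ.2.1 * (tB σ W τ.2.2.2 *
        nb (σ (nameB W (cond (sgs W) (msk 1 τ.2.2.1 (yy τ)))))) / 6 := by
  have h1 : ∀ ty, 𝔼 ρ : Fin 3 × (ZMod (D + 1) × ZMod (D + 1)),
      (if (edge W (τ, ty, ρ)).2.2 (A (edge W (τ, ty, ρ)).1) = B (edge W (τ, ty, ρ)).2.1
        then (1 : ℝ) else 0) ≤ best ty (cb τ ty) (σ (cst W τ ty).2.2.1) (σ (cst W τ ty).2.2.2.1)
          (σ (cst W τ ty).2.2.2.2) / 3 + 2 / (D + 1) := by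
    intro ty
    have h2 := pad_le ty (cb τ ty) (eL D (A (enc (cst W τ ty))))
      fun j => (eR D).symm (B (cv (cst W τ ty) j))
    simp only [← hσ] at h2
    rw [expect_prod]
    refine le_trans (le_of_eq ?_) h2
    refine expect_congr rfl fun j _ => expect_congr rfl fun r _ => ?_
    exact ite_iff (by simp only [edge, tab, Equiv.eq_symm_apply]) rfl rfl
  have h2 := best_pair (cb τ false) (σ (cst W τ false).2.2.1) (σ (cst W τ false).2.2.2.1)
    (σ (cst W τ true).2.2.1) (σ (cst W τ true).2.2.2.1) (σ (cst W τ true).2.2.2.2)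
  have h3 := h1 false
  have h4 := h1 true
  rw [expect_prod, expect_eq_sum_div_card, Fintype.sum_bool, card_univ, Fintype.card_bool]
  simp only [cst, cb, if_true, Bool.false_eq_true, if_false, sb_decide] at h2 h3 h4
  simp only [tA, tB]
  push_cast
  linarith

theorem red_sound (hP : ParRep) (ψ : CNF3) (hψ : ψ ≠ []) {α η : ℝ} (h0 : 0 ≤ α) (h1 : α ≤ 1)
    (hα : ∀ σ, (cnfCount ψ σ : ℝ) ≤ (1 - α) * ψ.length) (hη : 0 ≤ η)
    (ht : (1 - (α / 6) ^ 2 / 16) ^ t ≤ (η ^ 2) ^ 2) (A : ℕ → Fin (2 * (D + 3)))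
    (B : ℕ → Fin (D + 3)) : (gameCount (red t D ψ) A B : ℝ) ≤
      (11 / 12 + 2 / (D + 1) + η / 4) * (red t D ψ).length := by
  have : Nonempty (Fin ψ.length) := ⟨⟨0, List.length_pos_iff.2 hψ⟩⟩
  obtain ⟨σ, hσ⟩ : ∃ σ : ℕ → Bool, ∀ v, σ v = bt ((eR D).symm (B v)) := ⟨_, fun _ => rfl⟩
  have h : ∀ (c : ZMod 2) (H : (Fin t → Cl) → ((Fin t → Fin 3 → Bool) → ZMod 2) → ℝ),
      (∀ W g, H W g ^ 2 ≤ 1) → |𝔼 u : Fin t → Fin ψ.length, 𝔼 τ : Tm2 t,
        tA σ (fun i => aq ψ[u i] (τ.1 i)) τ.2.1 * (tB σ (fun i => ψ[u i]) τ.2.2.2 *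
          H (fun i => ψ[u i]) (msk c τ.2.2.1 (yy τ)))| ≤ η := by
    intro c H hH
    have h2 := core (E := (Fin t → Fin ψ.length) × (Fin t → Mode))
      (fun e i => ψ[e.1 i]) (fun e i => aq ψ[e.1 i] (e.2 i)) (fun e => prj e.2)
      (fun W => ok (sgs W)) c (tA σ) (tB σ) (fun e => H fun i => ψ[e.1 i]) (tA_sq σ) (tA_fold σ)
      (fun _ _ => sb_sq _) (tB_cond σ) (fun _ _ => hH _ _) (η ^ 2) fun F G => by
        have h2 := (rep_val hP ψ hψ h0 h1 hα t F G).trans ht
        refine le_trans (le_of_eq ?_) (abs_le_of_sq_le_sq' h2 (by positivity)).2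
        exact expect_congr rfl fun e _ => ite_iff Iff.rfl rfl rfl
    refine le_trans (le_of_eq ?_) (abs_le_of_sq_le_sq h2 hη)
    simp only [expect_prod, bias2, yy]
  have h2 := (abs_le.1 (h 0 (tB σ) fun _ _ => (sb_sq _).le)).2
  have h3 := (abs_le.1 (h 1 (fun W g => nb (σ (nameB W (cond (sgs W) g)))) fun W g => by
    cases σ (nameB W (cond (sgs W) g)) <;> simp [nb])).1
  rw [gameCount, countP_eq_sum, sum_red, length_red,
    mul_comm (11 / 12 + 2 / ((D : ℝ) + 1) + η / 4)]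
  simp only [decide_eq_true_eq, ← Fintype.card_mul_expect, ← mul_expect]
  rw [mul_assoc]
  refine mul_le_mul_of_nonneg_left (mul_le_mul_of_nonneg_left ?_ (by positivity)) (by positivity)
  refine le_trans (expect_le_expect fun u _ => (expect_prod _).trans_le
    (expect_le_expect fun τ _ => test_le A B σ hσ (fun i => ψ[u i]) τ)) ?_
  simp only [expect_sub_distrib, expect_add_distrib, Fintype.expect_const, ← expect_div]
  linarith

theorem main (hpcp : PCPThm) (hP : ParRep) (s : ℝ) (hs : 11 / 12 < s) :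
    ∃ q : ℕ, 2 ≤ q ∧ ∃ f : CNF3 → Game q, PT (fun φ => natsGame (f φ)) ∧
      ∀ φ : CNF3, f φ ≠ [] ∧ TwoToOne (f φ) ∧
        (Sat φ → ∃ (A : ℕ → Fin (2 * q)) (B : ℕ → Fin q), ∀ c ∈ f φ, c.2.2 (A c.1) = B c.2.1) ∧
        (¬ Sat φ → ∀ A B, (gameCount (f φ) A B : ℝ) ≤ s * (f φ).length) := by
  obtain ⟨α, hα, f, hf, h⟩ := hpcp
  obtain ⟨D, hD⟩ := exists_nat_one_div_lt (show 0 < (s - 11 / 12) / 4 by linarith)
  have hm0 : 0 < min α 1 := lt_min hα one_pos
  have hm1 : min α 1 ≤ 1 := min_le_right _ _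
  have hη : 0 < s - 11 / 12 := by linarith
  obtain ⟨t, ht⟩ := exists_pow_lt_of_lt_one (x := ((s - 11 / 12) ^ 2) ^ 2)
    (y := 1 - (min α 1 / 6) ^ 2 / 16) (by positivity) (by
      have : 0 < (min α 1 / 6) ^ 2 / 16 := by positivity
      linarith)
  refine ⟨D + 3, by omega, fun φ => red t D (f φ), (pt_red t D).comp hf, fun φ => ?_⟩
  obtain ⟨h1, h2, h3⟩ := h φ
  refine ⟨?_, red_two _, fun hs => red_complete _ (h2 hs), fun hs A B => ?_⟩
  · have : Nonempty (Fin (f φ).length) := ⟨⟨0, List.length_pos_iff.2 h1⟩⟩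
    have h4 : (0 : ℝ) < (red t D (f φ)).length := by
      rw [length_red]; positivity
    exact List.length_pos_iff.1 (by exact_mod_cast h4)
  · refine (red_sound hP _ h1 hm0.le hm1 (fun τ => (h3 hs τ).trans ?_) hη.le ht.le A B).trans ?_
    · exact mul_le_mul_of_nonneg_right (by linarith [min_le_left α 1]) (by positivity)
    · refine mul_le_mul_of_nonneg_right ?_ (by positivity)
      have e : (2 : ℝ) / (D + 1) = 2 * (1 / (D + 1)) := by ring
      rw [e]
      linarith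

end Vale.Agent.P339
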