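import Vale.Agent.P325.Final
import Vale.Agent.P325.Rep
import Vale.Agent.P325.PCPMain
import Vale.Agent.P325.Marg
import Vale.Agent.P325.Pow
import Vale.Agent.P325.Comp
import Vale.Agent.P339.Red

/-! From the library form of the theorem to machines on raw bit strings. -/

namespace Vale.Agent.P339

open Vale.Agent.Lib.PolyTime Vale.Agent.P325 Vale.Agent.P325.Fnl

theorem gameVal_le {q : ℕ} (hq : 2 ≤ q) (G : Game q) (hG : G ≠ []) (c : ℝ)
    (h : ∀ A B, (gameCount G A B : ℝ) ≤ c * G.length) : gameVal G ≤ c := by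
  have h0 : (0 : ℝ) < G.length := by exact_mod_cast List.length_pos_iff.2 hG
  have : Nonempty ((ℕ → Fin (2 * q)) × (ℕ → Fin q)) :=
    ⟨fun _ => ⟨0, by omega⟩, fun _ => ⟨0, by omega⟩⟩
  exact ciSup_le fun p => (div_le_iff₀ h0).2 (h p.1 p.2)

theorem gameVal_eq_one {q : ℕ} (hq : 2 ≤ q) (G : Game q) (hG : G ≠ []) (A : ℕ → Fin (2 * q))
    (B : ℕ → Fin q) (h : ∀ c ∈ G, c.2.2 (A c.1) = B c.2.1) : gameVal G = 1 := by
  have h0 : (0 : ℝ) < G.length := by exact_mod_cast List.length_pos_iff.2 hG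
  have h1 : ∀ A B, (gameCount G A B : ℝ) ≤ 1 * G.length := fun A B => by
    rw [one_mul]
    exact_mod_cast List.countP_le_length
  refine le_antisymm (gameVal_le hq G hG 1 h1) (le_ciSup_of_le ⟨1, ?_⟩ (A, B) ?_)
  · rintro _ ⟨p, rfl⟩
    exact (div_le_iff₀ h0).2 (h1 p.1 p.2)
  · have e : gameCount G A B = G.length :=
      List.countP_eq_length.2 fun c hc => decide_eq_true (h c hc)
    rw [e, div_self h0.ne']

theorem final (s : ℝ) (hs : 11 / 12 < s) :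
    ∃ q : ℕ, 2 ≤ q ∧ ∃ f : List Bool → Game q,
      (∃ M : Turing.TM2ComputableInPolyTime id (fun G => bitsOf (natsGame G)) f,
        ∀ j, Finite (M.tm.Γ j)) ∧
      ∀ x : List Bool, f x ≠ [] ∧ TwoToOne (f x) ∧
        ((∃ φ : CNF3, bitsOf (natsCNF φ) = x ∧ Sat φ) → gameVal (f x) = 1) ∧
        (¬ (∃ φ : CNF3, bitsOf (natsCNF φ) = x ∧ Sat φ) → gameVal (f x) ≤ s) := by
  obtain ⟨q, hq, f, hf, hφ⟩ := main (pcp_of margThm powThm compThm) parRep s hs
  refine ⟨q, hq, fun x => f (rd x),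
    (pt_bitsOf.comp (hf.comp pt_rd)).rawMachine _ _ _ fun _ => rfl, fun x => ?_⟩
  obtain ⟨h0, h1, h2, h3⟩ := hφ (rd x)
  rw [← sat_rd]
  refine ⟨h0, h1, fun hs => ?_, fun hs => gameVal_le hq _ h0 _ (h3 hs)⟩
  obtain ⟨A, B, h⟩ := h2 hs
  exact gameVal_eq_one hq _ h0 A B h

end Vale.Agent.P339
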